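import Mathlib

/-!
# Johnson slices: spectral gap and a Bessel inequality (for S0453).

`J1`: `2 T Var ≤ En` on the slice `E.powersetCard p`, proved with up/down operators (no spectral
theorem). `J2`: Bessel inequality for the indicators `χ_cd`.
-/

set_option autoImplicit false

namespace Crest.Agent.SW.Johnson

open Finset

variable {ι : Type*} [DecidableEq ι] (E : Finset ι)

/-- Up operator. -/
def up (h : Finset ι → ℝ) (A : Finset ι) : ℝ := ∑ x ∈ A, h (A.erase x)

/-- Down operator. -/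
def down (f : Finset ι → ℝ) (C : Finset ι) : ℝ := ∑ x ∈ E \ C, f (insert x C)

/-- Double counting between `(A, x ∈ A)` on level `p+1` and `(C, x ∉ C)` on level `p`. -/
lemma sum_slice_succ (p : ℕ) (G : Finset ι → ι → ℝ) :
    ∑ A ∈ E.powersetCard (p + 1), ∑ x ∈ A, G A x =
      ∑ C ∈ E.powersetCard p, ∑ x ∈ E \ C, G (insert x C) x := by
  rw [Finset.sum_sigma', Finset.sum_sigma']
  refine Finset.sum_bij' (fun a _ => ⟨a.1.erase a.2, a.2⟩) (fun a _ => ⟨insert a.2 a.1, a.2⟩)
    ?_ ?_ ?_ ?_ ?_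
  · rintro ⟨A, x⟩ h
    simp only [mem_sigma, mem_powersetCard] at h ⊢
    obtain ⟨⟨hAE, hc⟩, hx⟩ := h
    refine ⟨⟨(erase_subset _ _).trans hAE, ?_⟩, ?_⟩
    · rw [card_erase_of_mem hx, hc]; rfl
    · simp [hAE hx]
  · rintro ⟨C, x⟩ h
    simp only [mem_sigma, mem_powersetCard, mem_sdiff] at h ⊢
    obtain ⟨⟨hCE, hc⟩, hxE, hx⟩ := h
    refine ⟨⟨insert_subset hxE hCE, ?_⟩, mem_insert_self _ _⟩
    rw [card_insert_of_notMem hx, hc]
  · rintro ⟨A, x⟩ h
    simp only [mem_sigma] at h
    simp [insert_erase h.2]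
  · rintro ⟨C, x⟩ h
    simp only [mem_sigma, mem_sdiff] at h
    simp [erase_insert h.2.2]
  · rintro ⟨A, x⟩ h
    simp only [mem_sigma] at h
    simp [insert_erase h.2]

/-- `⟨f, U h⟩ = ⟨D f, h⟩`. -/
lemma adj_up_down (p : ℕ) (f h : Finset ι → ℝ) :
    ∑ A ∈ E.powersetCard (p + 1), f A * up h A =
      ∑ C ∈ E.powersetCard p, down E f C * h C := by
  have := sum_slice_succ E p (fun A x => f A * h (A.erase x))
  simp only [up, down, Finset.mul_sum, Finset.sum_mul]
  rw [this]
  refine Finset.sum_congr rfl fun C _ => Finset.sum_congr rfl fun x hx => ?_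
  rw [erase_insert (mem_sdiff.mp hx).2]

/-- The commutation relation, pointwise. -/
lemma down_up_eq (f : Finset ι → ℝ) (A : Finset ι) (hA : A ⊆ E) :
    down E (up f) A = up (down E f) A + ((E.card : ℝ) - 2 * A.card) * f A := by
  classical
  have h1 : ∀ y ∈ E \ A, up f (insert y A) =
      f A + ∑ x ∈ A, f (insert y (A.erase x)) := by
    intro y hy
    have hyA : y ∉ A := (mem_sdiff.mp hy).2
    unfold up
    rw [sum_insert hyA, erase_insert hyA]
    congr 1
    refine sum_congr rfl fun x hx => ?_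
    have : y ≠ x := fun h => hyA (h ▸ hx)
    rw [erase_insert_of_ne this]
  have h2 : ∀ x ∈ A, down E f (A.erase x) =
      f A + ∑ y ∈ E \ A, f (insert y (A.erase x)) := by
    intro x hx
    unfold down
    have hset : E \ A.erase x = insert x (E \ A) := by
      ext z
      simp only [mem_sdiff, mem_erase, mem_insert, not_and]
      constructor
      · rintro ⟨hz, h⟩
        by_cases hzx : z = x
        · exact Or.inl hzx
        · exact Or.inr ⟨hz, fun hzA => h hzx hzA⟩
      · rintro (rfl | ⟨hz, h⟩)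
        · exact ⟨hA hx, fun h' => absurd rfl h'⟩
        · exact ⟨hz, fun _ hzA => h hzA⟩
    rw [hset, sum_insert (by simp [hx]), insert_erase hx]
  have hcard : ((E \ A).card : ℝ) = (E.card : ℝ) - A.card := by
    rw [card_sdiff_of_subset hA, Nat.cast_sub (card_le_card hA)]
  unfold down at *
  have e1 : ∑ y ∈ E \ A, up f (insert y A) =
      (E \ A).card * f A + ∑ y ∈ E \ A, ∑ x ∈ A, f (insert y (A.erase x)) := by
    rw [sum_congr rfl h1, sum_add_distrib, sum_const, nsmul_eq_mul]
  have e2 : up (fun C => ∑ x ∈ E \ C, f (insert x C)) A =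
      A.card * f A + ∑ x ∈ A, ∑ y ∈ E \ A, f (insert y (A.erase x)) := by
    unfold up
    rw [sum_congr rfl h2, sum_add_distrib, sum_const, nsmul_eq_mul]
  rw [e1, e2, hcard, sum_comm]
  ring

/-- Abbreviation: squared norm on a slice. -/
noncomputable def nsq (p : ℕ) (f : Finset ι → ℝ) : ℝ := ∑ A ∈ E.powersetCard p, f A ^ 2

lemma nsq_nonneg (p : ℕ) (f : Finset ι → ℝ) : 0 ≤ nsq E p f :=
  sum_nonneg fun _ _ => sq_nonneg _

/-- `D` preserves mean zero. -/
lemma sum_down (p : ℕ) (f : Finset ι → ℝ) :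
    ∑ C ∈ E.powersetCard p, down E f C = ((p : ℝ) + 1) * ∑ A ∈ E.powersetCard (p + 1), f A := by
  have := sum_slice_succ E p (fun A _ => f A)
  simp only [down]
  rw [← this, Finset.mul_sum]
  refine sum_congr rfl fun A hA => ?_
  rw [sum_const, nsmul_eq_mul, (mem_powersetCard.mp hA).2]
  push_cast; ring

/-- `‖U h‖² = ⟨h, D U h⟩`. -/
lemma nsq_up (p : ℕ) (h : Finset ι → ℝ) :
    nsq E (p + 1) (up h) = ∑ C ∈ E.powersetCard p, down E (up h) C * h C := by
  have := adj_up_down E p (up h) h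
  simp only [nsq]
  rw [← this]
  exact sum_congr rfl fun A _ => by ring

/-- The key bound: on mean-zero functions of level `p+1`, `‖D f‖² ≤ p (T-p-1) ‖f‖²`. -/
theorem down_bound (p : ℕ) (f : Finset ι → ℝ) (hf : ∑ A ∈ E.powersetCard (p + 1), f A = 0) :
    nsq E p (down E f) ≤ (p : ℝ) * ((E.card : ℝ) - p - 1) * nsq E (p + 1) f := by
  induction p generalizing f with
  | zero =>
    have : nsq E 0 (down E f) = 0 := by
      have h := sum_down E 0 f
      rw [hf, mul_zero] at h
      simp only [powersetCard_zero, sum_singleton] at h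
      simp [nsq, h]
    rw [this]; simp
  | succ p ih =>
    set h := down E f with hh
    have hhmean : ∑ C ∈ E.powersetCard (p + 1), h C = 0 := by
      rw [hh, sum_down, hf, mul_zero]
    -- ‖U h‖² bound
    have hU : nsq E (p + 2) (up h) ≤
        ((p : ℝ) + 1) * ((E.card : ℝ) - p - 2) * nsq E (p + 1) h := by
      have e1 : nsq E (p + 2) (up h) =
          ∑ C ∈ E.powersetCard (p + 1), down E (up h) C * h C := by
        simpa using nsq_up E (p + 1) h
      have e2 : ∑ C ∈ E.powersetCard (p + 1), down E (up h) C * h C =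
          ∑ C ∈ E.powersetCard (p + 1), up (down E h) C * h C +
            ((E.card : ℝ) - 2 * ((p : ℝ) + 1)) * nsq E (p + 1) h := by
        unfold nsq
        rw [Finset.mul_sum, ← sum_add_distrib]
        refine sum_congr rfl fun C hC => ?_
        have hC' := mem_powersetCard.mp hC
        rw [down_up_eq E h C hC'.1, hC'.2]
        push_cast; ring
      have e3 : ∑ C ∈ E.powersetCard (p + 1), up (down E h) C * h C = nsq E p (down E h) := by
        have := adj_up_down E p h (down E h)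
        unfold nsq
        rw [show ∑ C ∈ E.powersetCard (p + 1), up (down E h) C * h C =
          ∑ C ∈ E.powersetCard (p + 1), h C * up (down E h) C from
            sum_congr rfl fun _ _ => mul_comm _ _, this]
        exact sum_congr rfl fun _ _ => by ring
      have hb := ih h hhmean
      rw [e1, e2, e3]
      nlinarith [hb]
    -- Cauchy-Schwarz
    set a := nsq E (p + 1) h with ha
    set b := nsq E (p + 2) f with hb
    set c : ℝ := ((p : ℝ) + 1) * ((E.card : ℝ) - p - 2) with hc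
    have ha0 : 0 ≤ a := nsq_nonneg _ _ _
    have hb0 : 0 ≤ b := nsq_nonneg _ _ _
    have hcs : a ^ 2 ≤ b * nsq E (p + 2) (up h) := by
      have e : a = ∑ A ∈ E.powersetCard (p + 2), f A * up h A := by
        rw [adj_up_down E (p + 1) f h]
        unfold a nsq
        refine sum_congr rfl fun C _ => ?_
        rw [hh]; ring
      rw [e]
      exact Finset.sum_mul_sq_le_sq_mul_sq _ _ _
    have h2 : a ^ 2 ≤ b * (c * a) := hcs.trans (mul_le_mul_of_nonneg_left hU hb0)
    show a ≤ ((p + 1 : ℕ) : ℝ) * ((E.card : ℝ) - ((p + 1 : ℕ) : ℝ) - 1) * b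
    have hcc : ((p + 1 : ℕ) : ℝ) * ((E.card : ℝ) - ((p + 1 : ℕ) : ℝ) - 1) = c := by
      rw [hc]; push_cast; ring
    rw [hcc]
    rcases ha0.lt_or_eq with hapos | hazero
    · have : a * a ≤ (c * b) * a := by nlinarith
      exact le_of_mul_le_mul_right this hapos
    · rw [← hazero]
      by_cases hp : p + 2 ≤ E.card
      · have hc0 : 0 ≤ c := by
          rw [hc]
          have : ((p : ℝ) + 2) ≤ E.card := by exact_mod_cast hp
          apply mul_nonneg (by positivity) (by linarith)
        positivity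
      · have : E.powersetCard (p + 2) = ∅ := powersetCard_eq_empty.mpr (by omega)
        have hb00 : b = 0 := by rw [hb]; simp [nsq, this]
        rw [hb00]; simp

/-- The energy in `C`-form: `En(f) = ∑_C ∑_{x,y ∉ C} (f(C+x) - f(C+y))²`,
where `C` runs over `(p-1)`-subsets. -/
noncomputable def enC (p : ℕ) (f : Finset ι → ℝ) : ℝ :=
  ∑ C ∈ E.powersetCard p, ∑ x ∈ E \ C, ∑ y ∈ E \ C, (f (insert x C) - f (insert y C)) ^ 2

/-- Elementary identity for finite sums. -/
lemma sum_sum_sub_sq {κ : Type*} (s : Finset κ) (a : κ → ℝ) :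
    ∑ x ∈ s, ∑ y ∈ s, (a x - a y) ^ 2 =
      2 * (s.card : ℝ) * ∑ x ∈ s, a x ^ 2 - 2 * (∑ x ∈ s, a x) ^ 2 := by
  have h : ∀ x ∈ s, ∑ y ∈ s, (a x - a y) ^ 2 =
      s.card * a x ^ 2 - 2 * a x * (∑ y ∈ s, a y) + ∑ y ∈ s, a y ^ 2 := by
    intro x _
    have : ∀ y ∈ s, (a x - a y) ^ 2 = a x ^ 2 - 2 * a x * a y + a y ^ 2 := fun y _ => by ring
    rw [sum_congr rfl this, sum_add_distrib, sum_sub_distrib, sum_const, nsmul_eq_mul,
      Finset.mul_sum]
  rw [sum_congr rfl h, sum_add_distrib, sum_sub_distrib, sum_const, nsmul_eq_mul,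
    ← Finset.mul_sum, ← Finset.sum_mul, ← Finset.mul_sum, sq (∑ y ∈ s, a y)]
  ring_nf

/-- Closed form of the energy. -/
lemma enC_eq (p : ℕ) (f : Finset ι → ℝ) (hp : p + 1 ≤ E.card) :
    enC E p f = 2 * ((E.card : ℝ) - p) * ((p : ℝ) + 1) * nsq E (p + 1) f
      - 2 * nsq E p (down E f) := by
  unfold enC
  have h1 : ∀ C ∈ E.powersetCard p, ∑ x ∈ E \ C, ∑ y ∈ E \ C, (f (insert x C) - f (insert y C)) ^ 2 =
      2 * ((E.card : ℝ) - p) * ∑ x ∈ E \ C, f (insert x C) ^ 2 - 2 * (down E f C) ^ 2 := by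
    intro C hC
    have hC' := mem_powersetCard.mp hC
    rw [sum_sum_sub_sq (E \ C) (fun x => f (insert x C)), card_sdiff_of_subset hC'.1, hC'.2,
      Nat.cast_sub (by omega)]
    rfl
  rw [sum_congr rfl h1, sum_sub_distrib, ← Finset.mul_sum, ← Finset.mul_sum]
  have h2 : ∑ C ∈ E.powersetCard p, ∑ x ∈ E \ C, f (insert x C) ^ 2 =
      ((p : ℝ) + 1) * nsq E (p + 1) f := by
    have := sum_slice_succ E p (fun A _ => f A ^ 2)
    rw [← this]
    unfold nsq
    rw [Finset.mul_sum]
    refine sum_congr rfl fun A hA => ?_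
    rw [sum_const, nsmul_eq_mul, (mem_powersetCard.mp hA).2]
    push_cast; ring
  rw [h2]
  unfold nsq
  ring

/-- Variance sum on a slice. -/
noncomputable def varS (p : ℕ) (f : Finset ι → ℝ) : ℝ :=
  ∑ A ∈ E.powersetCard p, f A ^ 2 -
    (∑ A ∈ E.powersetCard p, f A) ^ 2 / ((E.powersetCard p).card : ℝ)

lemma enC_shift (p : ℕ) (f : Finset ι → ℝ) (m : ℝ) :
    enC E p (fun A => f A - m) = enC E p f := by
  unfold enC
  refine sum_congr rfl fun C _ => sum_congr rfl fun x _ => sum_congr rfl fun y _ => ?_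
  ring

/-- **J1**: the Johnson gap in `C`-form. For `1 ≤ p+1 ≤ T`. -/
theorem J1 (p : ℕ) (f : Finset ι → ℝ) (hp : p + 1 ≤ E.card) :
    2 * (E.card : ℝ) * varS E (p + 1) f ≤ enC E p f := by
  set N : ℝ := ((E.powersetCard (p + 1)).card : ℝ) with hN
  have hNpos : 0 < N := by
    rw [hN]
    have : (E.powersetCard (p + 1)).card = (E.card).choose (p + 1) := card_powersetCard _ _
    rw [this]
    exact_mod_cast Nat.choose_pos hp
  set m : ℝ := (∑ A ∈ E.powersetCard (p + 1), f A) / N with hm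
  set g : Finset ι → ℝ := fun A => f A - m with hg
  have hgsum : ∑ A ∈ E.powersetCard (p + 1), g A = 0 := by
    rw [hg]; simp only
    rw [sum_sub_distrib, sum_const, nsmul_eq_mul, ← hN, hm]
    field_simp
    ring
  have hvar : varS E (p + 1) f = nsq E (p + 1) g := by
    unfold varS nsq
    rw [← hN]
    simp only [hg]
    have : ∀ A ∈ E.powersetCard (p + 1), (f A - m) ^ 2 = f A ^ 2 - 2 * m * f A + m ^ 2 :=
      fun A _ => by ring
    rw [sum_congr rfl this, sum_add_distrib, sum_sub_distrib, ← Finset.mul_sum, sum_const,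
      nsmul_eq_mul, ← hN]
    have hs : ∑ A ∈ E.powersetCard (p + 1), f A = m * N := by
      rw [hm]; field_simp
    rw [hs]
    field_simp
    ring
  rw [hvar, ← enC_shift E p f m, enC_eq E p _ hp]
  have hb := down_bound E p g hgsum
  have : (E.card : ℝ) = (E.card : ℝ) := rfl
  nlinarith [hb, nsq_nonneg E (p + 1) g]


/-! ## J2: Bessel inequality -/

/-- Indicator that exactly one of `c, d` lies in `A`. -/
noncomputable def chi (c d : ι) (A : Finset ι) : ℝ :=
  if (c ∈ A ∧ d ∉ A) ∨ (d ∈ A ∧ c ∉ A) then 1 else 0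

lemma chi_comm (c d : ι) (A : Finset ι) : chi c d A = chi d c A := by
  unfold chi
  congr 1
  exact propext or_comm

/-- Pattern count. -/
lemma sum_pat (p : ℕ) (W₁ W₀ : Finset ι) (h₁ : W₁ ⊆ E) (h₀ : W₀ ⊆ E) (hd : Disjoint W₁ W₀)
    (hp : W₁.card ≤ p) :
    ∑ A ∈ E.powersetCard p, (if W₁ ⊆ A ∧ Disjoint A W₀ then (1 : ℝ) else 0) =
      ((E.card - W₁.card - W₀.card).choose (p - W₁.card) : ℕ) := by
  rw [Finset.sum_boole]
  congr 1
  have hU : (E \ (W₁ ∪ W₀)).card = E.card - W₁.card - W₀.card := by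
    rw [card_sdiff_of_subset (union_subset h₁ h₀), card_union_of_disjoint hd]
    omega
  rw [← hU, ← card_powersetCard]
  refine Finset.card_bij' (fun A _ => A \ W₁) (fun B _ => B ∪ W₁) ?_ ?_ ?_ ?_
  · intro A hA
    simp only [mem_filter, mem_powersetCard] at hA ⊢
    obtain ⟨⟨hAE, hc⟩, hs, hdj⟩ := hA
    refine ⟨?_, ?_⟩
    · intro x hx
      simp only [mem_sdiff, mem_union, not_or] at hx ⊢
      exact ⟨hAE hx.1, hx.2, fun h => (disjoint_left.mp hdj hx.1 h)⟩
    · rw [card_sdiff_of_subset hs, hc]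
  · intro B hB
    simp only [mem_filter, mem_powersetCard] at hB ⊢
    obtain ⟨hBE, hc⟩ := hB
    have hBd : Disjoint B W₁ := by
      rw [disjoint_left]
      intro x hx hx'
      have := hBE hx
      simp only [mem_sdiff, mem_union, not_or] at this
      exact this.2.1 hx'
    have hB0 : Disjoint B W₀ := by
      rw [disjoint_left]
      intro x hx hx'
      have := hBE hx
      simp only [mem_sdiff, mem_union, not_or] at this
      exact this.2.2 hx'
    refine ⟨⟨union_subset (fun x hx => (mem_sdiff.mp (hBE hx)).1) h₁, ?_⟩, subset_union_right, ?_⟩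
    · rw [card_union_of_disjoint hBd, hc]; omega
    · rw [disjoint_union_left]
      exact ⟨hB0, hd⟩
  · intro A hA
    simp only [mem_filter, mem_powersetCard] at hA
    exact sdiff_union_of_subset hA.2.1
  · intro B hB
    simp only [mem_powersetCard] at hB
    have hBd : Disjoint B W₁ := by
      rw [disjoint_left]
      intro x hx hx'
      have := hB.1 hx
      simp only [mem_sdiff, mem_union, not_or] at this
      exact this.2.1 hx'
    exact union_sdiff_cancel_right hBd

lemma sum_pat_zero (p : ℕ) (W₁ W₀ : Finset ι) (hp : p < W₁.card) :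
    ∑ A ∈ E.powersetCard p, (if W₁ ⊆ A ∧ Disjoint A W₀ then (1 : ℝ) else 0) = 0 := by
  apply sum_eq_zero
  intro A hA
  rw [if_neg]
  rintro ⟨hs, -⟩
  have := card_le_card hs
  rw [(mem_powersetCard.mp hA).2] at this
  omega

/-- `k1 = C(T-2, p-1)`. -/
noncomputable def k1 (E : Finset ι) (p : ℕ) : ℝ := ((E.card - 2).choose (p - 1) : ℕ)

/-- The disjoint overlap count. -/
noncomputable def n4 (E : Finset ι) (p : ℕ) : ℝ :=
  if 4 ≤ E.card ∧ 2 ≤ p then 4 * (((E.card - 4).choose (p - 2) : ℕ) : ℝ) else 0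

lemma sum_chi (p : ℕ) (hp : 1 ≤ p) {c d : ι} (hc : c ∈ E) (hd : d ∈ E) (hcd : c ≠ d) :
    ∑ A ∈ E.powersetCard p, chi c d A = 2 * k1 E p := by
  have key : ∀ A ∈ E.powersetCard p, chi c d A =
      (if ({c} : Finset ι) ⊆ A ∧ Disjoint A {d} then (1 : ℝ) else 0) +
      (if ({d} : Finset ι) ⊆ A ∧ Disjoint A {c} then (1 : ℝ) else 0) := by
    intro A _
    unfold chi
    simp only [singleton_subset_iff, disjoint_singleton_right]
    by_cases h1 : c ∈ A <;> by_cases h2 : d ∈ A <;> simp [h1, h2]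
  rw [sum_congr rfl key, sum_add_distrib,
    sum_pat E p {c} {d} (by simpa using hc) (by simpa using hd) (by simpa using hcd) (by simpa using hp),
    sum_pat E p {d} {c} (by simpa using hd) (by simpa using hc) (by simpa using hcd.symm) (by simpa using hp)]
  simp only [card_singleton]
  unfold k1
  have : E.card - 1 - 1 = E.card - 2 := by omega
  rw [this]
  ring

lemma chi_sq (c d : ι) (A : Finset ι) : chi c d A * chi c d A = chi c d A := by
  unfold chi
  split_ifs <;> simp

lemma chi_nonneg (c d : ι) (A : Finset ι) : 0 ≤ chi c d A := by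
  unfold chi
  split_ifs <;> simp

lemma sum_chi_share (p : ℕ) (hp : 1 ≤ p) {c d e : ι} (hc : c ∈ E) (hd : d ∈ E) (he : e ∈ E)
    (hcd : c ≠ d) (hce : c ≠ e) (hde : d ≠ e) :
    ∑ A ∈ E.powersetCard p, chi c d A * chi c e A = k1 E p := by
  have key : ∀ A ∈ E.powersetCard p, chi c d A * chi c e A =
      (if ({c} : Finset ι) ⊆ A ∧ Disjoint A {d, e} then (1 : ℝ) else 0) +
      (if ({d, e} : Finset ι) ⊆ A ∧ Disjoint A {c} then (1 : ℝ) else 0) := by
    intro A _
    unfold chi
    simp only [singleton_subset_iff, disjoint_singleton_right, insert_subset_iff,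
      disjoint_insert_right]
    by_cases h1 : c ∈ A <;> by_cases h2 : d ∈ A <;> by_cases h3 : e ∈ A <;> simp [h1, h2, h3]
  have hTc : 3 ≤ E.card := by
    have : ({c, d, e} : Finset ι) ⊆ E := by
      intro x hx
      simp only [mem_insert, mem_singleton] at hx
      rcases hx with rfl | rfl | rfl <;> assumption
    have h3 := card_le_card this
    rwa [card_eq_three.mpr ⟨c, d, e, hcd, hce, hde, rfl⟩] at h3
  have hde' : ({d, e} : Finset ι).card = 2 := card_pair hde
  have hsub : ({d, e} : Finset ι) ⊆ E := by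
    intro x hx
    simp only [mem_insert, mem_singleton] at hx
    rcases hx with rfl | rfl <;> assumption
  have hdj : Disjoint ({c} : Finset ι) {d, e} := by
    simp [hcd, hce]
  rw [sum_congr rfl key, sum_add_distrib,
    sum_pat E p {c} {d, e} (by simpa using hc) hsub hdj (by simpa using hp)]
  simp only [card_singleton, hde']
  unfold k1
  rcases Nat.lt_or_ge p 2 with hp2 | hp2
  · have hp1 : p = 1 := by omega
    subst hp1
    rw [sum_pat_zero E 1 {d, e} {c} (by rw [hde']; omega)]
    simp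
  · rw [sum_pat E p {d, e} {c} hsub (by simpa using hc) hdj.symm (by rw [hde']; exact hp2),
      hde']
    simp only [card_singleton]
    obtain ⟨T, hT⟩ : ∃ T, E.card = T + 3 := ⟨E.card - 3, by omega⟩
    obtain ⟨q, hq⟩ : ∃ q, p = q + 2 := ⟨p - 2, by omega⟩
    rw [hT, hq]
    have e1 : T + 3 - 2 = T + 1 := by omega
    have e2 : T + 3 - 1 - 2 = T := by omega
    have e3 : q + 2 - 1 = q + 1 := by omega
    have e4 : T + 3 - 2 - 1 = T := by omega
    have e5 : q + 2 - 2 = q := by omega
    rw [e2, e4, e5, e3, e1, Nat.choose_succ_succ T q]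
    push_cast
    ring

lemma sum_chi_disj (p : ℕ) {c d e f : ι} (hc : c ∈ E) (hd : d ∈ E) (he : e ∈ E) (hf : f ∈ E)
    (hcd : c ≠ d) (hce : c ≠ e) (hcf : c ≠ f) (hde : d ≠ e) (hdf : d ≠ f) (hef : e ≠ f) :
    ∑ A ∈ E.powersetCard p, chi c d A * chi e f A = n4 E p := by
  have key : ∀ A ∈ E.powersetCard p, chi c d A * chi e f A =
      (if ({c, e} : Finset ι) ⊆ A ∧ Disjoint A {d, f} then (1 : ℝ) else 0) +
      (if ({c, f} : Finset ι) ⊆ A ∧ Disjoint A {d, e} then (1 : ℝ) else 0) +
      (if ({d, e} : Finset ι) ⊆ A ∧ Disjoint A {c, f} then (1 : ℝ) else 0) +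
      (if ({d, f} : Finset ι) ⊆ A ∧ Disjoint A {c, e} then (1 : ℝ) else 0) := by
    intro A _
    unfold chi
    simp only [singleton_subset_iff, disjoint_singleton_right, insert_subset_iff,
      disjoint_insert_right]
    by_cases h1 : c ∈ A <;> by_cases h2 : d ∈ A <;> by_cases h3 : e ∈ A <;>
      by_cases h4 : f ∈ A <;> simp [h1, h2, h3, h4]
  have hT : 4 ≤ E.card := by
    have hs : ({c, d, e, f} : Finset ι) ⊆ E := by
      intro x hx
      simp only [mem_insert, mem_singleton] at hx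
      rcases hx with rfl | rfl | rfl | rfl <;> assumption
    have h3 := card_le_card hs
    have h4 : ({c, d, e, f} : Finset ι).card = 4 := by
      rw [card_insert_of_notMem (by simp [hcd, hce, hcf]),
        card_insert_of_notMem (by simp [hde, hdf]), card_pair hef]
    omega
  have pair_sub : ∀ x y : ι, x ∈ E → y ∈ E → ({x, y} : Finset ι) ⊆ E := by
    intro x y hx hy z hz
    simp only [mem_insert, mem_singleton] at hz
    rcases hz with rfl | rfl <;> assumption
  have hdj : ∀ x y z w : ι, x ≠ z → x ≠ w → y ≠ z → y ≠ w →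
      Disjoint ({x, y} : Finset ι) {z, w} := by
    intro x y z w h1 h2 h3 h4
    rw [disjoint_left]
    intro a ha hb
    simp only [mem_insert, mem_singleton] at ha hb
    rcases ha with rfl | rfl <;> rcases hb with rfl | rfl <;> contradiction
  rw [sum_congr rfl key, sum_add_distrib, sum_add_distrib, sum_add_distrib]
  unfold n4
  rcases Nat.lt_or_ge p 2 with hp2 | hp2
  · rw [if_neg (by omega),
      sum_pat_zero E p {c, e} {d, f} (by rw [card_pair hce]; exact hp2),
      sum_pat_zero E p {c, f} {d, e} (by rw [card_pair hcf]; exact hp2),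
      sum_pat_zero E p {d, e} {c, f} (by rw [card_pair hde]; exact hp2),
      sum_pat_zero E p {d, f} {c, e} (by rw [card_pair hdf]; exact hp2)]
    simp
  · rw [if_pos ⟨hT, hp2⟩,
      sum_pat E p {c, e} {d, f} (pair_sub _ _ hc he) (pair_sub _ _ hd hf)
        (hdj _ _ _ _ hcd hcf hde.symm hef) (by rw [card_pair hce]; exact hp2),
      sum_pat E p {c, f} {d, e} (pair_sub _ _ hc hf) (pair_sub _ _ hd he)
        (hdj _ _ _ _ hcd hce hdf.symm hef.symm) (by rw [card_pair hcf]; exact hp2),
      sum_pat E p {d, e} {c, f} (pair_sub _ _ hd he) (pair_sub _ _ hc hf)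
        (hdj _ _ _ _ hcd.symm hdf hce.symm hef) (by rw [card_pair hde]; exact hp2),
      sum_pat E p {d, f} {c, e} (pair_sub _ _ hd hf) (pair_sub _ _ hc he)
        (hdj _ _ _ _ hcd.symm hde hcf.symm hef.symm) (by rw [card_pair hdf]; exact hp2),
      card_pair hce, card_pair hcf, card_pair hde, card_pair hdf]
    have : E.card - 2 - 2 = E.card - 4 := by omega
    rw [this]
    ring

/-- Overlap count, all cases. -/
noncomputable def nOver (E : Finset ι) (p : ℕ) (c d e f : ι) : ℝ :=
  n4 E p + (k1 E p - n4 E p) *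
      ((if e = c then 1 else 0) + (if e = d then 1 else 0) +
        (if f = c then 1 else 0) + (if f = d then 1 else 0)) +
    n4 E p * ((if e = c then 1 else 0) * (if f = d then 1 else 0) +
      (if e = d then 1 else 0) * (if f = c then 1 else 0))

lemma sum_chi_mul (p : ℕ) (hp : 1 ≤ p) {c d e f : ι} (hc : c ∈ E) (hd : d ∈ E) (he : e ∈ E)
    (hf : f ∈ E) (hcd : c ≠ d) (hef : e ≠ f) :
    ∑ A ∈ E.powersetCard p, chi c d A * chi e f A = nOver E p c d e f := by
  unfold nOver
  by_cases h1 : e = c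
  · subst h1
    by_cases h2 : f = d
    · subst h2
      simp only [chi_sq, sum_chi E p hp hc hd hcd, if_true, hcd, hcd.symm, if_false]
      ring
    · rw [sum_chi_share E p hp he hd hf hcd hef (Ne.symm h2)]
      simp only [if_true, h2, if_false, hcd, hef.symm]
      ring
  · by_cases h2 : e = d
    · subst h2
      by_cases h3 : f = c
      · subst h3
        have : ∀ A, chi f e A * chi e f A = chi f e A := by
          intro A; rw [chi_comm e f, chi_sq]
        simp only [this, sum_chi E p hp hf he hcd, if_true, h1, if_false, hcd, hcd.symm]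
        ring
      · have : ∀ A, chi c e A * chi e f A = chi e c A * chi e f A := by
          intro A; rw [chi_comm c e]
        simp only [this]
        rw [sum_chi_share E p hp hd hc hf hcd.symm hef (Ne.symm h3)]
        simp only [if_true, h1, h3, if_false, hef.symm]
        ring
    · by_cases h3 : f = c
      · subst h3
        have : ∀ A, chi f d A * chi e f A = chi f d A * chi f e A := by
          intro A; rw [chi_comm e f]
        simp only [this]
        rw [sum_chi_share E p hp hc hd he hcd (Ne.symm h1) (Ne.symm h2)]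
        simp only [if_true, h1, h2, hcd, if_false]
        ring
      · by_cases h4 : f = d
        · subst h4
          have : ∀ A, chi c f A * chi e f A = chi f c A * chi f e A := by
            intro A; rw [chi_comm e f, chi_comm c f]
          simp only [this]
          rw [sum_chi_share E p hp hd hc he hcd.symm (Ne.symm h2) (Ne.symm h1)]
          simp only [if_true, h1, h2, h3, hcd.symm, if_false]
          ring
        · rw [sum_chi_disj E p hc hd he hf hcd (Ne.symm h1) (Ne.symm h3) (Ne.symm h2) (Ne.symm h4) hef]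
          simp only [h1, h2, h3, h4, if_false]
          ring

lemma chi_self (c : ι) (A : Finset ι) : chi c c A = 0 := by
  unfold chi
  simp

/-- The number of pairs separated by `A`. -/
lemma sum_sum_chi (A : Finset ι) (hA : A ⊆ E) :
    ∑ c ∈ E, ∑ d ∈ E, chi c d A = 2 * (A.card : ℝ) * ((E.card : ℝ) - A.card) := by
  have key : ∀ c d, chi c d A =
      (if c ∈ A then 1 else 0) * (if d ∈ A then 0 else 1) +
      (if c ∈ A then 0 else 1) * (if d ∈ A then 1 else 0) := by
    intro c d
    unfold chi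
    by_cases h1 : c ∈ A <;> by_cases h2 : d ∈ A <;> simp [h1, h2]
  have h1 : ∑ c ∈ E, (if c ∈ A then (1 : ℝ) else 0) = A.card := by
    rw [sum_ite_mem, inter_eq_right.mpr hA]; simp
  have h2 : ∑ c ∈ E, (if c ∈ A then (0 : ℝ) else 1) = (E.card : ℝ) - A.card := by
    have : ∀ c ∈ E, (if c ∈ A then (0 : ℝ) else 1) = 1 - (if c ∈ A then (1 : ℝ) else 0) := by
      intro c _; split_ifs <;> simp
    rw [sum_congr rfl this, sum_sub_distrib, h1]; simp
  simp only [key, sum_add_distrib, ← Finset.mul_sum, ← Finset.sum_mul, h1, h2]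
  ring

/-- Abstract bound for symmetric arrays with total sum `0`. -/
lemma R_bound (β : ι → ι → ℝ) (hsymm : ∀ c d, β c d = β d c) (hdiag : ∀ c, β c c = 0)
    (htot : ∑ c ∈ E, ∑ d ∈ E, β c d = 0) (hT : 2 ≤ E.card) :
    ∑ c ∈ E, (∑ d ∈ E, β c d) ^ 2 ≤
      ((E.card : ℝ) - 2) / 2 * ∑ c ∈ E, ∑ d ∈ E, β c d ^ 2 := by
  set r : ι → ℝ := fun c => ∑ d ∈ E, β c d with hr
  set R := ∑ c ∈ E, r c ^ 2 with hR
  set B := ∑ c ∈ E, ∑ d ∈ E, β c d ^ 2 with hB
  have hR0 : 0 ≤ R := sum_nonneg fun _ _ => sq_nonneg _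
  have hB0 : 0 ≤ B := sum_nonneg fun _ _ => sum_nonneg fun _ _ => sq_nonneg _
  have hsumr : ∑ c ∈ E, r c = 0 := htot
  set w : ι × ι → ℝ := fun x => if x.1 = x.2 then 0 else r x.1 + r x.2 with hw
  set b : ι × ι → ℝ := fun x => β x.1 x.2 with hb
  have e1 : ∑ x ∈ E ×ˢ E, w x * b x = 2 * R := by
    have h0 : ∀ x ∈ E ×ˢ E, w x * b x = (r x.1 + r x.2) * b x := by
      rintro ⟨c, d⟩ _
      simp only [hw, hb]
      by_cases h : c = d
      · subst h; simp [hdiag]
      · simp [h]
    rw [sum_congr rfl h0, sum_product]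
    simp only [hb, add_mul, sum_add_distrib]
    have h1 : ∑ c ∈ E, ∑ d ∈ E, r c * β c d = R := by
      refine sum_congr rfl fun c _ => ?_
      rw [← Finset.mul_sum, sq]
    have h2 : ∑ c ∈ E, ∑ d ∈ E, r d * β c d = R := by
      rw [sum_comm]
      refine sum_congr rfl fun c _ => ?_
      have : ∀ d ∈ E, r c * β d c = r c * β c d := fun d _ => by rw [hsymm]
      rw [sum_congr rfl this, ← Finset.mul_sum, sq]
    rw [h1, h2]; ring
  have e2 : ∑ x ∈ E ×ˢ E, w x ^ 2 = 2 * ((E.card : ℝ) - 2) * R := by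
    have h0 : ∀ x ∈ E ×ˢ E, w x ^ 2 =
        (r x.1 + r x.2) ^ 2 - (if x.1 = x.2 then 4 * r x.1 ^ 2 else 0) := by
      rintro ⟨c, d⟩ _
      simp only [hw]
      by_cases h : c = d
      · subst h; simp; ring
      · simp [h]
    rw [sum_congr rfl h0, sum_sub_distrib, sum_product, sum_product]
    have h1 : ∑ c ∈ E, ∑ d ∈ E, (r c + r d) ^ 2 = 2 * (E.card : ℝ) * R := by
      have : ∀ c ∈ E, ∑ d ∈ E, (r c + r d) ^ 2 = (E.card : ℝ) * r c ^ 2 + R := by
        intro c _
        have : ∀ d ∈ E, (r c + r d) ^ 2 = r c ^ 2 + 2 * r c * r d + r d ^ 2 := fun d _ => by ring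
        rw [sum_congr rfl this, sum_add_distrib, sum_add_distrib, sum_const, nsmul_eq_mul,
          ← Finset.mul_sum, hsumr]
        ring
      rw [sum_congr rfl this, sum_add_distrib, sum_const, nsmul_eq_mul, ← Finset.mul_sum]
      ring
    have h2 : ∑ c ∈ E, ∑ d ∈ E, (if c = d then 4 * r c ^ 2 else 0) = 4 * R := by
      have : ∀ c ∈ E, ∑ d ∈ E, (if c = d then 4 * r c ^ 2 else 0) = 4 * r c ^ 2 := by
        intro c hc
        rw [sum_ite_eq E c]; simp [hc]
      rw [sum_congr rfl this, ← Finset.mul_sum]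
    simp only []
    rw [h1, h2]
    ring
  have e3 : ∑ x ∈ E ×ˢ E, b x ^ 2 = B := by
    rw [sum_product]
  have hcs := Finset.sum_mul_sq_le_sq_mul_sq (E ×ˢ E) w b
  rw [e1, e2, e3] at hcs
  have hT' : (0 : ℝ) ≤ (E.card : ℝ) - 2 := by
    have : (2 : ℝ) ≤ E.card := by exact_mod_cast hT
    linarith
  rcases hR0.lt_or_eq with hpos | hzero
  · have h4 : R * (4 * R) ≤ R * (2 * ((E.card : ℝ) - 2) * B) := by nlinarith
    have h5 := le_of_mul_le_mul_left h4 hpos
    have h6 : ((E.card : ℝ) - 2) / 2 * B = (2 * ((E.card : ℝ) - 2) * B) / 4 := by ring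
    rw [h6]
    linarith
  · rw [← hzero]
    positivity

lemma n4_le (p : ℕ) (hp : 1 ≤ p) : n4 E p ≤ 2 * k1 E p := by
  unfold n4 k1
  split_ifs with h
  · obtain ⟨T, hT⟩ : ∃ T, E.card = T + 4 := ⟨E.card - 4, by omega⟩
    obtain ⟨q, hq⟩ : ∃ q, p = q + 2 := ⟨p - 2, by omega⟩
    rw [hT, hq]
    have e1 : T + 4 - 4 = T := by omega
    have e2 : q + 2 - 2 = q := by omega
    have e3 : T + 4 - 2 = T + 2 := by omega
    have e4 : q + 2 - 1 = q + 1 := by omega
    rw [e1, e2, e3, e4, Nat.choose_succ_succ (T + 1) q, Nat.choose_succ_succ T q]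
    have : T.choose q ≤ (T + 1).choose q := Nat.choose_le_succ T q
    have h' : ((T.choose q : ℕ) : ℝ) ≤ ((T + 1).choose q : ℕ) := by exact_mod_cast this
    have h0 : (0 : ℝ) ≤ (T.choose (q + 1) : ℕ) := Nat.cast_nonneg _
    push_cast
    linarith
  · positivity

lemma k1_nonneg (p : ℕ) : 0 ≤ k1 E p := by unfold k1; positivity

lemma sum_nOver (p : ℕ) (β : ι → ι → ℝ) (hsymm : ∀ c d, β c d = β d c)
    (htot : ∑ c ∈ E, ∑ d ∈ E, β c d = 0) {c d : ι} (hc : c ∈ E) (hd : d ∈ E) :
    ∑ e ∈ E, ∑ f ∈ E, β e f * nOver E p c d e f =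
      2 * (k1 E p - n4 E p) * (∑ f ∈ E, β c f + ∑ f ∈ E, β d f) + 2 * n4 E p * β c d := by
  have d1 : ∀ x ∈ E, ∑ e ∈ E, ∑ f ∈ E, β e f * (if e = x then 1 else 0) = ∑ f ∈ E, β x f := by
    intro x hx
    have : ∀ e ∈ E, ∑ f ∈ E, β e f * (if e = x then 1 else 0) =
        if e = x then ∑ f ∈ E, β e f else 0 := by
      intro e _
      split_ifs <;> simp
    rw [sum_congr rfl this, sum_ite_eq' E x]
    simp [hx]
  have d2 : ∀ x ∈ E, ∑ e ∈ E, ∑ f ∈ E, β e f * (if f = x then 1 else 0) = ∑ f ∈ E, β x f := by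
    intro x hx
    have : ∀ e ∈ E, ∑ f ∈ E, β e f * (if f = x then 1 else 0) = β x e := by
      intro e _
      have h : ∀ f ∈ E, β e f * (if f = x then 1 else 0) = if f = x then β e f else 0 := by
        intro f _
        split_ifs <;> simp
      rw [sum_congr rfl h, sum_ite_eq' E x]
      simp [hx, hsymm e x]
    rw [sum_congr rfl this]
  have d3 : ∀ x ∈ E, ∀ y ∈ E, ∑ e ∈ E, ∑ f ∈ E,
      β e f * ((if e = x then 1 else 0) * (if f = y then 1 else 0)) = β x y := by
    intro x hx y hy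
    have : ∀ e ∈ E, ∑ f ∈ E, β e f * ((if e = x then 1 else 0) * (if f = y then 1 else 0)) =
        if e = x then β e y else 0 := by
      intro e _
      have h : ∀ f ∈ E, β e f * ((if e = x then 1 else 0) * (if f = y then 1 else 0)) =
          (if e = x then 1 else 0) * (if f = y then β e f else 0) := by
        intro f _
        split_ifs <;> simp
      rw [sum_congr rfl h, ← Finset.mul_sum, sum_ite_eq' E y]
      simp only [hy, if_true]
      split_ifs <;> simp
    rw [sum_congr rfl this, sum_ite_eq' E x]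
    simp [hx]
  have expand : ∀ e f, β e f * nOver E p c d e f =
      n4 E p * β e f +
      (k1 E p - n4 E p) * (β e f * (if e = c then 1 else 0) + β e f * (if e = d then 1 else 0) +
        β e f * (if f = c then 1 else 0) + β e f * (if f = d then 1 else 0)) +
      n4 E p * (β e f * ((if e = c then 1 else 0) * (if f = d then 1 else 0)) +
        β e f * ((if e = d then 1 else 0) * (if f = c then 1 else 0))) := by
    intro e f
    unfold nOver
    ring
  simp only [expand, sum_add_distrib, ← Finset.mul_sum]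
  rw [htot, d1 c hc, d1 d hd, d2 c hc, d2 d hd, d3 c hc d hd, d3 d hd c hc, hsymm d c]
  ring

/-- **J2**: Bessel inequality, ordered pairs. -/
theorem J2 (p : ℕ) (hp : 1 ≤ p) (hq : p + 1 ≤ E.card) (f : Finset ι → ℝ) :
    ∑ c ∈ E, ∑ d ∈ E,
        (∑ A ∈ E.powersetCard p,
          chi c d A * (f A - (∑ A ∈ E.powersetCard p, f A) / ((E.powersetCard p).card : ℝ))) ^ 2 ≤
      2 * k1 E p * ((E.card : ℝ) - 2) * varS E p f := by
  set N : ℝ := ((E.powersetCard p).card : ℝ) with hN
  have hNpos : 0 < N := by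
    rw [hN]
    have : (E.powersetCard p).card = (E.card).choose p := card_powersetCard _ _
    rw [this]
    exact_mod_cast Nat.choose_pos (by omega)
  set m : ℝ := (∑ A ∈ E.powersetCard p, f A) / N with hm
  set g : Finset ι → ℝ := fun A => f A - m with hg
  have hgsum : ∑ A ∈ E.powersetCard p, g A = 0 := by
    rw [hg]; simp only
    rw [sum_sub_distrib, sum_const, nsmul_eq_mul, ← hN, hm]
    field_simp
    ring
  have hvar : varS E p f = ∑ A ∈ E.powersetCard p, g A ^ 2 := by
    unfold varS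
    rw [← hN]
    simp only [hg]
    have : ∀ A ∈ E.powersetCard p, (f A - m) ^ 2 = f A ^ 2 - 2 * m * f A + m ^ 2 :=
      fun A _ => by ring
    rw [sum_congr rfl this, sum_add_distrib, sum_sub_distrib, ← Finset.mul_sum, sum_const,
      nsmul_eq_mul, ← hN]
    have hs : ∑ A ∈ E.powersetCard p, f A = m * N := by
      rw [hm]; field_simp
    rw [hs]
    field_simp
    ring
  rw [hvar]
  set V := ∑ A ∈ E.powersetCard p, g A ^ 2 with hV
  have hV0 : 0 ≤ V := sum_nonneg fun _ _ => sq_nonneg _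
  have hT : 2 ≤ E.card := by omega
  have hT' : (2 : ℝ) ≤ E.card := by exact_mod_cast hT
  set β : ι → ι → ℝ := fun c d => ∑ A ∈ E.powersetCard p, chi c d A * g A with hβ
  show ∑ c ∈ E, ∑ d ∈ E, β c d ^ 2 ≤ _
  have hsymm : ∀ c d, β c d = β d c := by
    intro c d
    simp only [hβ, chi_comm c d]
  have hdiag : ∀ c, β c c = 0 := by
    intro c
    simp [hβ, chi_self]
  have swap3 : ∀ G : ι → ι → Finset ι → ℝ,
      ∑ c ∈ E, ∑ d ∈ E, ∑ A ∈ E.powersetCard p, G c d A =
        ∑ A ∈ E.powersetCard p, ∑ c ∈ E, ∑ d ∈ E, G c d A := by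
    intro G
    calc ∑ c ∈ E, ∑ d ∈ E, ∑ A ∈ E.powersetCard p, G c d A
        = ∑ c ∈ E, ∑ A ∈ E.powersetCard p, ∑ d ∈ E, G c d A :=
          sum_congr rfl fun c _ => sum_comm
      _ = ∑ A ∈ E.powersetCard p, ∑ c ∈ E, ∑ d ∈ E, G c d A := sum_comm
  have htot : ∑ c ∈ E, ∑ d ∈ E, β c d = 0 := by
    simp only [hβ]
    rw [swap3]
    have : ∀ A ∈ E.powersetCard p, ∑ c ∈ E, ∑ d ∈ E, chi c d A * g A =
        (2 * (p : ℝ) * ((E.card : ℝ) - p)) * g A := by
      intro A hA
      have hA' := mem_powersetCard.mp hA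
      simp only [← Finset.sum_mul]
      rw [sum_sum_chi E A hA'.1, hA'.2]
    rw [sum_congr rfl this, ← Finset.mul_sum, hgsum, mul_zero]
  set B := ∑ c ∈ E, ∑ d ∈ E, β c d ^ 2 with hB
  have hB0 : 0 ≤ B := sum_nonneg fun _ _ => sum_nonneg fun _ _ => sq_nonneg _
  set h : Finset ι → ℝ := fun A => ∑ c ∈ E, ∑ d ∈ E, β c d * chi c d A with hh
  have e1 : ∑ A ∈ E.powersetCard p, g A * h A = B := by
    simp only [hh, hB, Finset.mul_sum]
    rw [← swap3]
    refine sum_congr rfl fun c _ => sum_congr rfl fun d _ => ?_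
    rw [sq]
    simp only [hβ]
    rw [Finset.mul_sum]
    refine sum_congr rfl fun A _ => ?_
    ring
  set R := ∑ c ∈ E, (∑ d ∈ E, β c d) ^ 2 with hR
  have hR0 : 0 ≤ R := sum_nonneg fun _ _ => sq_nonneg _
  have hRb := R_bound E β hsymm hdiag htot hT
  have hQ : ∑ A ∈ E.powersetCard p, h A ^ 2 = 4 * (k1 E p - n4 E p) * R + 2 * n4 E p * B := by
    have s1 : ∑ A ∈ E.powersetCard p, h A ^ 2 =
        ∑ c ∈ E, ∑ d ∈ E, β c d * ∑ A ∈ E.powersetCard p, chi c d A * h A := by
      simp only [Finset.mul_sum]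
      rw [swap3]
      refine sum_congr rfl fun A _ => ?_
      rw [sq]
      conv_lhs => rw [show h A * h A = (∑ c ∈ E, ∑ d ∈ E, β c d * chi c d A) * h A from rfl]
      simp only [Finset.sum_mul]
      refine sum_congr rfl fun c _ => sum_congr rfl fun d _ => ?_
      ring
    have s2 : ∀ c ∈ E, ∀ d ∈ E, β c d * ∑ A ∈ E.powersetCard p, chi c d A * h A =
        β c d * (2 * (k1 E p - n4 E p) * (∑ f ∈ E, β c f + ∑ f ∈ E, β d f) + 2 * n4 E p * β c d) := by
      intro c hc d hd
      by_cases hcd : c = d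
      · subst hcd; simp [hdiag]
      · congr 1
        rw [← sum_nOver E p β hsymm htot hc hd]
        simp only [hh, Finset.mul_sum]
        rw [← swap3]
        refine sum_congr rfl fun e he => sum_congr rfl fun f hf => ?_
        by_cases hef : e = f
        · subst hef; simp [hdiag]
        · rw [← sum_chi_mul E p hp hc hd he hf hcd hef, Finset.mul_sum]
          refine sum_congr rfl fun A _ => ?_
          ring
    rw [s1]
    rw [sum_congr rfl fun c hc => sum_congr rfl fun d hd => s2 c hc d hd]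
    have s3 : ∑ c ∈ E, ∑ d ∈ E, β c d * (∑ f ∈ E, β c f) = R := by
      refine sum_congr rfl fun c _ => ?_
      rw [← Finset.sum_mul, sq]
    have s4 : ∑ c ∈ E, ∑ d ∈ E, β c d * (∑ f ∈ E, β d f) = R := by
      rw [sum_comm]
      refine sum_congr rfl fun d _ => ?_
      have : ∀ c ∈ E, β c d * (∑ f ∈ E, β d f) = β d c * (∑ f ∈ E, β d f) := fun c _ => by
        rw [hsymm]
      rw [sum_congr rfl this, ← Finset.sum_mul, sq]
    have s5 : ∀ c d, β c d * (2 * (k1 E p - n4 E p) * (∑ f ∈ E, β c f + ∑ f ∈ E, β d f) +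
        2 * n4 E p * β c d) =
        2 * (k1 E p - n4 E p) * (β c d * (∑ f ∈ E, β c f)) +
        2 * (k1 E p - n4 E p) * (β c d * (∑ f ∈ E, β d f)) + 2 * n4 E p * β c d ^ 2 := by
      intro c d; ring
    simp only [s5, sum_add_distrib, ← Finset.mul_sum]
    rw [s3, s4]
    ring
  have hcs := Finset.sum_mul_sq_le_sq_mul_sq (E.powersetCard p) g h
  rw [e1, hQ] at hcs
  have hk0 := k1_nonneg E p
  have hn4le := n4_le E p hp
  have hn40 : 0 ≤ n4 E p := by
    unfold n4; split_ifs <;> positivity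
  -- `Q ≤ 2 k1 (T-2) B`
  have hQb : 4 * (k1 E p - n4 E p) * R + 2 * n4 E p * B ≤ 2 * k1 E p * ((E.card : ℝ) - 2) * B := by
    have hn4T : n4 E p = 0 ∨ (4 : ℝ) ≤ E.card := by
      unfold n4
      split_ifs with hc
      · right; exact_mod_cast hc.1
      · left; rfl
    rcases le_or_gt (n4 E p) (k1 E p) with hle | hlt
    · have h1 : 4 * (k1 E p - n4 E p) * R ≤
          4 * (k1 E p - n4 E p) * (((E.card : ℝ) - 2) / 2 * B) :=
        mul_le_mul_of_nonneg_left hRb (by linarith)
      rcases hn4T with h0 | hT4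
      · rw [h0] at h1 ⊢
        nlinarith
      · nlinarith [mul_nonneg hn40 hB0, mul_nonneg (mul_nonneg hn40 hB0) (by linarith : (0:ℝ) ≤ (E.card : ℝ) - 3)]
    · have hT4 : (4 : ℝ) ≤ E.card := by
        rcases hn4T with h0 | hT4
        · rw [h0] at hlt; linarith
        · exact hT4
      have h1 : 4 * (k1 E p - n4 E p) * R ≤ 0 :=
        mul_nonpos_of_nonpos_of_nonneg (by linarith) hR0
      have h2 : 2 * n4 E p * B ≤ 2 * (2 * k1 E p) * B :=
        mul_le_mul_of_nonneg_right (by linarith) hB0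
      have h3 : 2 * (2 * k1 E p) * B ≤ 2 * k1 E p * ((E.card : ℝ) - 2) * B := by
        nlinarith [mul_nonneg (mul_nonneg hk0 hB0) (sub_nonneg.mpr hT4)]
      linarith
  have h2 : B ^ 2 ≤ V * (2 * k1 E p * ((E.card : ℝ) - 2) * B) :=
    hcs.trans (mul_le_mul_of_nonneg_left hQb hV0)
  rcases hB0.lt_or_eq with hpos | hzero
  · have : B * B ≤ (2 * k1 E p * ((E.card : ℝ) - 2) * V) * B := by nlinarith
    exact le_of_mul_le_mul_right this hpos
  · rw [← hzero]
    have : 0 ≤ (E.card : ℝ) - 2 := by linarith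
    positivity

end Crest.Agent.SW.Johnson
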